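import Vale.Agent.P078.Local.Def.Rule

/-!
# The exact process of one period and the output of the period lemma (sec. 6 of the note)
-/

noncomputable section

namespace Vale.Agent.P078.Local

/-- The exact process: laws, compensated point, exits. -/
structure Ax (ι : Type*) (r : ℕ) where
  /-- the laws -/
  h : ι → Fin r → ℝ
  /-- the point -/
  Z : ι → ℝ
  /-- the sites that have exited -/
  ex : Finset ι

variable {ι : Type*} [Fintype ι] [DecidableEq ι] (p : Par) (N : Net ι p.D)

/-- Sites of `S` farther than `R_i` from its complement. -/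
def core (i : Fin 3) (S : Finset ι) : Finset ι := S \ N.nbhd (Finset.univ \ S) (p.R i)

/-- Sites that may exit in the period of level `i` begun at laws `hs`. -/
def watched (i : Fin 3) (s : Bool) (L : ℝ) (hs : ι → Fin p.r → ℝ) (S : Finset ι) : Finset ι :=
  open scoped Classical in (core p N i S).filter fun l => startOK p N i s L hs l

/-- Watched sites with too large a row at the point `a`. -/
def high (s : Bool) (S Wt : Finset ι) (a : Ax ι p.r) : Finset ι :=
  open scoped Classical in Wt.filter fun l => 3 * p.M < Irow S a.h a.Z (N.xs s) l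

/-- The exact process follows the jump `ξ` at `w`. -/
def axJump (i : Fin 3) (s : Bool) (S Wt : Finset ι) (a : Ax ι p.r) (w : ι) (ξ : Fin p.r → ℝ) :
    Ax ι p.r :=
  if w ∈ core p N i S ∧ w ∉ a.ex then
    let a' : Ax ι p.r :=
      { h := Function.update a.h w (a.h w + ξ)
        Z := Function.update a.Z w (a.Z w + ∑ c, ξ c * m S w a.h c a.Z (N.xs s))
        ex := a.ex }
    { a' with ex := a'.ex ∪ high p N s S Wt a' }
  else a

/-- The joint step. -/
def axStep (ω : Seeds ι p) (i : Fin 3) (s : Bool) (S Wt : Finset ι) (q : St ι p.r × Ax ι p.r)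
    (sl : Slot ι p) (b : Bool) : St ι p.r × Ax ι p.r :=
  (step p N ω q.1 sl b,
    match sl.2 with
    | none => q.2
    | some w => axJump p N i s S Wt q.2 w (jumpAt p N ω sl.1 q.1 w b))

/-- The start of the exact process. -/
def axInit (i : Fin 3) (s : Bool) (L : ℝ) (hs : ι → Fin p.r → ℝ) (S : Finset ι) : Ax ι p.r :=
  let a : Ax ι p.r := { h := hs, Z := fun _ => L + p.rise i / 2, ex := ∅ }
  { a with ex := high p N s S (watched p N i s L hs S) a }

/-- The joint process along `sls`, in the period of level `i` that begins at phase `a` in state `st`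
with input `S`. -/
def axRun (ω : Seeds ι p) (σ : Coins ι p) (i : Fin 3) (s : Bool) (a : ℕ) (S : Finset ι)
    (st : St ι p.r) (sls : List (Slot ι p)) : St ι p.r × Ax ι p.r :=
  let Wt := watched p N i s (p.floor i a) st.h S
  sls.foldl (fun q sl => axStep p N ω i s S Wt q sl (σ sl))
    (st, axInit p N i s (p.floor i a) st.h S)

/-- The exits of that period. -/
def perEx (ω : Seeds ι p) (σ : Coins ι p) (i : Fin 3) (s : Bool) (a : ℕ) (S : Finset ι)
    (st : St ι p.r) : Finset ι :=
  (axRun p N ω σ i s a S st (seg p ω a (a + p.len i))).2.ex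

/-- The output of the period, `D` being the last output of the level below. -/
def perOut (ω : Seeds ι p) (σ : Coins ι p) (i : Fin 3) (s : Bool) (a : ℕ) (S D : Finset ι)
    (st : St ι p.r) : Finset ι :=
  let E := perEx p N ω σ i s a S st ∩ N.nbhd (S \ D) (11 * p.R i)
  S \ N.nbhd ((Finset.univ \ S) ∪ E) (10 * p.R i)

end Vale.Agent.P078.Local
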