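import Mathlib

/-!
# Averages over finite seed spaces
-/

noncomputable section

namespace Vale.Agent.P078.Local

/-- The average of `f`. -/
def avg {α : Type*} [Fintype α] (f : α → ℝ) : ℝ := (∑ a, f a) / Fintype.card α

/-- The probability of `p`. -/
def prob {α : Type*} [Fintype α] (p : α → Prop) : ℝ :=
  avg fun a => by classical exact if p a then (1 : ℝ) else 0

/-- The sign of a coin. -/
def coin (b : Bool) : ℝ := if b then 1 else -1

end Vale.Agent.P078.Local
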