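import Vale.Agent.P078.Local.Def.Par
import Vale.Agent.P078.Local.Def.Avg

/-!
# The colouring rule as one fold over slots (notes/P078/TYPE3_GO_helper3.md, sec. 5)

A slot is a phase with either `none` (the phase begins, snapshots are refreshed) or a site. In a
phase sites act by priority; a site tied with another one within `2 R₀` skips, so the order inside a
priority class does not matter.
-/

noncomputable section

namespace Vale.Agent.P078.Local

variable {ι : Type*}

/-- A seed of a site in a phase: a priority and an order of the colours. -/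
abbrev Seed (p : Par) : Type := Fin p.P × Equiv.Perm (Fin p.r)

/-- Seeds. -/
abbrev Seeds (ι : Type*) (p : Par) : Type _ := Fin p.Nph → ι → Seed p

/-- A slot. -/
abbrev Slot (ι : Type*) (p : Par) : Type _ := Fin p.Nph × Option ι

/-- Coins. -/
abbrev Coins (ι : Type*) (p : Par) : Type _ := Slot ι p → Bool

/-- The state: the laws, and their values when the current period of each level began. -/
structure St (ι : Type*) (r : ℕ) where
  /-- the laws -/
  h : ι → Fin r → ℝ
  /-- the snapshots -/
  snap : Fin 3 → ι → Fin r → ℝ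

/-- The directions of a jump: supported on `L`, orthogonal to `1` and to the rows. -/
def dirSpace {r : ℕ} {κ : Type*} (L : Finset (Fin r)) (rows : κ → Fin r → ℝ) :
    Submodule ℝ (EuclideanSpace ℝ (Fin r)) where
  carrier := {v | (∀ c, c ∉ L → v c = 0) ∧ ∑ c, v c = 0 ∧ ∀ k, ∑ c, v c * rows k c = 0}
  zero_mem' := by simp
  add_mem' := fun ha hb => by
    refine ⟨fun c hc => by simp [ha.1 c hc, hb.1 c hc], ?_, fun k => ?_⟩
    · simp [Finset.sum_add_distrib, ha.2.1, hb.2.1]
    · simp [add_mul, Finset.sum_add_distrib, ha.2.2 k, hb.2.2 k]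
  smul_mem' := fun a v hv => by
    refine ⟨fun c hc => by simp [hv.1 c hc], ?_, fun k => ?_⟩
    · simp [← Finset.mul_sum, hv.2.1]
    · simp [mul_assoc, ← Finset.mul_sum, hv.2.2 k]

/-- The normalised projection of the first basis vector, in the order `π`, with nonzero projection. -/
def pickDir {r : ℕ} {κ : Type*} (L : Finset (Fin r)) (rows : κ → Fin r → ℝ)
    (π : Equiv.Perm (Fin r)) : EuclideanSpace ℝ (Fin r) :=
  let V := dirSpace L rows
  let v : Fin r → EuclideanSpace ℝ (Fin r) :=
    fun j => V.starProjection (EuclideanSpace.single (π j) (1 : ℝ))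
  open scoped Classical in
  match (List.finRange r).find? (fun j => decide (v j ≠ 0)) with
  | some j => ‖v j‖⁻¹ • v j
  | none => 0

variable [Fintype ι] [DecidableEq ι] (p : Par) (N : Net ι p.D)

/-- Colours that may still move. -/
def live (h : ι → Fin p.r → ℝ) (l : ι) : Finset (Fin p.r) :=
  Finset.univ.filter fun c => p.h0 + Real.sqrt p.η ≤ h l c

/-- The start test of level `i`, sign `s`, in a period with floor `L` begun at laws `hs`. -/
def startOK (i : Fin 3) (s : Bool) (L : ℝ) (hs : ι → Fin p.r → ℝ) (l : ι) : Prop :=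
  Valid (N.ball l (p.R i)) hs (fun _ => L) (N.xs s) ∧
    (Phi (N.ball l (p.R i)) hs (fun _ => L + p.rise i / 4) (N.xs s) l
      - Phi (N.ball l (p.R i)) hs (fun _ => L + p.rise i / 2) (N.xs s) l) / (p.rise i / 4) ≤ p.M

/-- The turn test at the current laws. -/
def turnOK (i : Fin 3) (s : Bool) (L : ℝ) (h : ι → Fin p.r → ℝ) (l : ι) : Prop :=
  Valid (N.ball l (p.R i)) h (fun _ => L + p.rise i) (N.xs s) ∧
    Irow (N.ball l (p.R i)) h (fun _ => L + p.rise i) (N.xs s) l ≤ 5 * p.M

/-- The rows that a jump at `l` avoids. -/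
def killRows (n : ℕ) (h : ι → Fin p.r → ℝ) (l : ι) (k : Fin 3 × Bool) (c : Fin p.r) : ℝ :=
  m (N.ball l (p.R k.1)) l h c (fun _ => p.floor k.1 n + p.rise k.1) (N.xs k.2)

/-- Another site within `2 R₀` has the same priority. -/
def tie (ω : Seeds ι p) (n : Fin p.Nph) (l : ι) : Prop :=
  ∃ u ∈ N.ball l (2 * p.R 0), u ≠ l ∧ (ω n u).1 = (ω n l).1

/-- The site may jump now. -/
def canMove (ω : Seeds ι p) (n : Fin p.Nph) (st : St ι p.r) (l : ι) : Prop :=
  ¬ tie p N ω n l ∧ (∀ i s, startOK p N i s (p.floor i n) (st.snap i) l) ∧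
    (∀ i s, turnOK p N i s (p.floor i n) st.h l) ∧ 8 ≤ (live p st.h l).card

/-- The jump of `l`. -/
def jumpAt (ω : Seeds ι p) (n : Fin p.Nph) (st : St ι p.r) (l : ι) (b : Bool) : Fin p.r → ℝ :=
  open scoped Classical in
  if canMove p N ω n st l then
    fun c => coin b * Real.sqrt p.η * pickDir (live p st.h l) (killRows p N n st.h l) (ω n l).2 c
  else 0

/-- One slot. -/
def step (ω : Seeds ι p) (st : St ι p.r) (sl : Slot ι p) (b : Bool) : St ι p.r :=
  match sl.2 with
  | none => { h := st.h, snap := fun i => if p.len i ∣ (sl.1 : ℕ) then st.h else st.snap i }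
  | some l => { h := Function.update st.h l (st.h l + jumpAt p N ω sl.1 st l b), snap := st.snap }

/-- The slots of one phase. -/
def phaseSlots (ω : Seeds ι p) (n : Fin p.Nph) : List (Slot ι p) :=
  (n, none) :: ((List.finRange p.P).flatMap fun j =>
    (Finset.univ.filter fun l => (ω n l).1 = j).toList).map fun l => (n, some l)

/-- The slots of the phases in `[a, b)`. -/
def seg (ω : Seeds ι p) (a b : ℕ) : List (Slot ι p) :=
  ((List.finRange p.Nph).filter fun n : Fin p.Nph => decide (a ≤ n.val ∧ n.val < b)).flatMap (phaseSlots p ω)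

/-- The uniform start. -/
def init : St ι p.r :=
  { h := fun _ _ => 1 / (p.r : ℝ), snap := fun _ _ _ => 1 / (p.r : ℝ) }

/-- The state after the slots `sls`. -/
def runOn (ω : Seeds ι p) (σ : Coins ι p) (st : St ι p.r) (sls : List (Slot ι p)) : St ι p.r :=
  sls.foldl (fun st sl => step p N ω st sl (σ sl)) st

/-- The state when phase `n` begins. -/
def stateAt (ω : Seeds ι p) (σ : Coins ι p) (n : ℕ) : St ι p.r :=
  runOn p N ω σ (init p) (seg p ω 0 n)

/-- `c` is the colour of `l`: the first largest one in the order of the seed. -/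
def IsColour (ω : Seeds ι p) (σ : Coins ι p) (l : ι) (c : Fin p.r) : Prop :=
  let h := (stateAt p N ω σ p.Nph).h l
  (∀ d, h d ≤ h c) ∧ ∀ hn : 0 < p.Nph, ∀ d, h d = h c →
    (ω ⟨0, hn⟩ l).2.symm c ≤ (ω ⟨0, hn⟩ l).2.symm d

/-- The radius of dependence. -/
def Par.depend (p : Par) : ℕ := (p.Nph + 1) * (p.P + 1) * (3 * p.R 0 + 1)

end Vale.Agent.P078.Local
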