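import Vale.Agent.P078.Local.Def.Exact

/-!
# The chain of valid sets around a site, and the good event (sec. 7 of the note)
-/

noncomputable section

namespace Vale.Agent.P078.Local

variable {ι : Type*} [Fintype ι] [DecidableEq ι] (p : Par) (N : Net ι p.D)

/-- The inputs of the periods of the three levels that are current at phase `k`. -/
def sets (ω : Seeds ι p) (σ : Coins ι p) (o : ι) (s : Bool) : ℕ → Fin 3 → Finset ι
  | 0 => fun _ => N.ball o p.Lg
  | k + 1 =>
    let S := sets ω σ o s k
    let o0 := perOut p N ω σ 0 s k (S 0) ∅ (stateAt p N ω σ k)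
    let a1 := k + 1 - p.K1
    let o1 := perOut p N ω σ 1 s a1 (S 1) o0 (stateAt p N ω σ a1)
    let a2 := k + 1 - p.len 2
    let o2 := perOut p N ω σ 2 s a2 (S 2) o1 (stateAt p N ω σ a2)
    let top := if p.len 2 ∣ k + 1 then o2 else S 2
    let mid := if p.len 2 ∣ k + 1 then o2 else if p.K1 ∣ k + 1 then o1 else S 1
    ![if p.K1 ∣ k + 1 then mid else o0, mid, top]

/-- Up to phase `n` all sets keep `B(o, rt)` and no finished period has an exit near `o`. -/
def GoodTo (ω : Seeds ι p) (σ : Coins ι p) (o : ι) (n : ℕ) : Prop :=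
  (∀ k ≤ n, ∀ i s, N.ball o p.rt ⊆ sets p N ω σ o s k i) ∧
    ∀ i s a, p.len i ∣ a → a + p.len i ≤ n →
      Disjoint (N.ball o (30 * p.R i))
        (perEx p N ω σ i s a (sets p N ω σ o s a i) (stateAt p N ω σ a))

end Vale.Agent.P078.Local
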