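import Vale.Agent.P078.Local.Stable.Cone

/-!
# Finite nets: a bounded degree graph carrying a Hermitian contraction with zero diagonal
-/

noncomputable section

namespace Vale.Agent.P078.Local

open scoped ComplexConjugate

variable {ι : Type*}

/-- The quadratic form of `x` on `T` is bounded by `a`. -/
def OpLe (T : Finset ι) (x : ι → ι → ℂ) (a : ℝ) : Prop :=
  ∀ v : ι → ℂ, |(∑ l ∈ T, ∑ u ∈ T, conj (v l) * x l u * v u).re| ≤ a * ∑ l ∈ T, Complex.normSq (v l)

/-- A finite graph of degree at most `D` with a Hermitian contraction on its edges. -/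
structure Net (ι : Type*) [Fintype ι] (D : ℕ) where
  /-- neighbours -/
  nb : ι → Finset ι
  symm : ∀ l u, u ∈ nb l → l ∈ nb u
  card_le : ∀ l, (nb l).card ≤ D
  /-- the operator -/
  x : ι → ι → ℂ
  herm : IsHerm x
  diag : ∀ l, x l l = 0
  supp : ∀ l u, x l u ≠ 0 → u ∈ nb l
  opLe : OpLe Finset.univ x 1

variable [Fintype ι] [DecidableEq ι] {D : ℕ}

namespace Net

variable (N : Net ι D)

/-- The underlying simple graph. -/
def graph : SimpleGraph ι where
  Adj l u := l ≠ u ∧ u ∈ N.nb l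
  symm := ⟨fun l u h => ⟨h.1.symm, N.symm l u h.2⟩⟩
  loopless := ⟨fun l h => h.1 rfl⟩

/-- Sites within distance `k` of `A`. -/
def nbhd (A : Finset ι) : ℕ → Finset ι
  | 0 => A
  | k + 1 => nbhd A k ∪ (nbhd A k).biUnion N.nb

/-- The ball. -/
def ball (l : ι) (k : ℕ) : Finset ι := N.nbhd {l} k

/-- `min (dist(l, A)) w`. -/
def lev (A : Finset ι) (w : ℕ) (l : ι) : ℕ :=
  ((Finset.range w).filter fun k => l ∉ N.nbhd A k).card

/-- `x` or `-x`. -/
def xs (s : Bool) : ι → ι → ℂ := if s then N.x else -N.x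

end Net

end Vale.Agent.P078.Local
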