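import Vale.Agent.P078.Local.Def.Slice

/-!
# Parameters of the rule (notes/P078/TYPE3_GO_helper3.md, sec. 5)
-/

noncomputable section

namespace Vale.Agent.P078.Local

/-- The parameters. -/
structure Par where
  /-- degree -/
  D : ℕ
  /-- colours -/
  r : ℕ
  /-- phases in a middle period -/
  K1 : ℕ
  /-- middle periods in a top period -/
  K2 : ℕ
  /-- top periods -/
  N2 : ℕ
  /-- priorities -/
  P : ℕ
  /-- radii of the three levels -/
  R : Fin 3 → ℕ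
  /-- radius of the initial set -/
  Lg : ℕ
  /-- radius kept inside all sets -/
  rt : ℕ
  /-- square of the step -/
  η : ℝ
  /-- threshold of the start test -/
  M : ℝ
  /-- first floor -/
  t0 : ℝ

namespace Par

variable (p : Par)

/-- The number of phases. -/
def Nph : ℕ := p.N2 * (p.K1 * p.K2)

/-- Phases in a period of each level. -/
def len : Fin 3 → ℕ := ![1, p.K1, p.K1 * p.K2]

/-- The rise in a period of each level. -/
def rise : Fin 3 → ℝ :=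
  ![p.t0 / (64 * p.Nph), 8 * p.K1 * (p.t0 / (64 * p.Nph)), 64 * p.K1 * p.K2 * (p.t0 / (64 * p.Nph))]

/-- The floor of each level at phase `n`. -/
def floor (i : Fin 3) (n : ℕ) : ℝ :=
  let L2 := p.t0 + (n / p.len 2 : ℕ) * p.rise 2
  let L1 := L2 + (n % p.len 2 / p.K1 : ℕ) * p.rise 1
  ![L1 + (n % p.K1 : ℕ) * p.rise 0, L1, L2] i

/-- The lower bound of live colours. -/
def h0 : ℝ := 1 / (4 * p.r)

/-- Bound on a ball. -/
def vol (k : ℕ) : ℝ := ((p.D : ℝ) + 2) ^ k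

/-- The tail at level `i`. -/
def tl (i : Fin 3) : ℝ := tailB (p.R i) (p.rise i / 8)

/-- The constant of the jumps of `I`. -/
def jb : ℝ := 1000 * (p.r : ℝ) ^ 2 * p.M ^ 2

/-- The probability of an exit at level `i`. -/
def pE (i : Fin 3) : ℝ := (p.len i + 1) * Real.exp (-(p.M / (64 * p.len i * p.η * p.jb ^ 2)))

/-- Boundary removal at level 0 within one middle period. -/
def f1 : ℕ := p.K1 * (10 * p.R 0 + 1)

/-- Boundary removal at level 1 within one top period. -/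
def f2 : ℕ := p.K2 * (10 * p.R 1 + 1) + 3

/-- Reach of one exit of level 1. -/
def c1 : ℕ := 21 * p.R 1 + p.f1 + 3

/-- Reach of one exit of level 2. -/
def c2 : ℕ := 21 * p.R 2 + p.f2 + 3

/-- Total reach without exits. -/
def free : ℕ := p.N2 * (10 * p.R 2 + 1) + 2 * p.f2 + p.f1 + p.rt + 3

/-- Bound on the probability of a bad history at a site. -/
def failG : ℝ :=
  2 * p.Nph * p.vol p.Lg * p.pE 0
    + ∑ i, 2 * p.Nph * p.vol (30 * p.R i) * p.pE i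
    + 64 * p.Nph * (2 * ((p.D : ℝ) + 2)) ^ (2 * p.free) / 2 ^ p.Lg

/-- Bound on the probability that a site stays unresolved on a good history. -/
def failU : ℝ :=
  1 / (p.η * p.Nph) + 2 ^ 14 / (p.t0 ^ 2 * p.M) + p.vol (2 * p.R 0) / p.P

/-- The requirements on the parameters. -/
structure Ok : Prop where
  r_ge : 8 ≤ p.r
  K1_pos : 0 < p.K1
  K2_pos : 0 < p.K2
  N2_pos : 0 < p.N2
  P_pos : 0 < p.P
  R_ge : ∀ i, 4 ≤ p.R i
  R_le : ∀ i, p.R i ≤ p.R 0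
  rt_ge : ∀ i, 31 * p.R i ≤ p.rt
  rt_le : 2 * p.rt ≤ p.Lg
  η_pos : 0 < p.η
  η_le : Real.sqrt p.η ≤ p.h0 / 5
  M_ge : 1 ≤ p.M
  t0_pos : 0 < p.t0
  t0_le : p.t0 ≤ 1 / 4
  tl_le : ∀ i, p.tl i ≤ p.rise i / 64
  tl_sum : ∀ i, p.Nph * p.tl i ≤ 1
  glue : ∀ i, 16 * ((p.D : ℝ) + 1) ≤ p.rise i * (p.R i : ℝ) ^ 2
  crude : ∀ i, 8 * (p.r : ℝ) ^ 2 * p.len i * Real.sqrt p.η ≤ 1
  kap : ∀ i, 80 * (p.r : ℝ) ^ 2 * p.M * p.len i * Real.sqrt p.η ≤ 1 / 128
  kap9 : ∀ i, (80 * (p.r : ℝ) ^ 2 * p.M * p.len i * Real.sqrt p.η) ^ 9 ≤ p.rise i / 32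
  drift : ∀ i, 50 * p.len i * p.η * p.jb ≤ 1
  reach1 : (2 * ((p.D : ℝ) + 2)) ^ p.c1 * Real.sqrt (p.pE 1) * p.Nph ≤ 1 / 2
  reach2 : (2 * ((p.D : ℝ) + 2)) ^ p.c2 * Real.sqrt (p.pE 2) * p.Nph ≤ 1 / 2

end Par

end Vale.Agent.P078.Local
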