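import Vale.Agent.P078.Local.Def.Net

/-!
# The resolvent functions of the colour mixture
-/

noncomputable section

namespace Vale.Agent.P078.Local

variable {ι : Type*} [DecidableEq ι] {r : ℕ}

/-- `Φ_l = q_{T-l} / q_T`. -/
def Phi (T : Finset ι) (h : ι → Fin r → ℝ) (Z : ι → ℝ) (x : ι → ι → ℂ) (l : ι) : ℝ :=
  qR (T.erase l) h Z x / qR T h Z x

/-- `W_lu = -∂_u Φ_l`. -/
def W (T : Finset ι) (h : ι → Fin r → ℝ) (Z : ι → ℝ) (x : ι → ι → ℂ) (l u : ι) : ℝ :=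
  if l = u then Phi T h Z x l ^ 2
  else (qR (T.erase l) h Z x * qR (T.erase u) h Z x
      - qR T h Z x * qR ((T.erase l).erase u) h Z x) / qR T h Z x ^ 2

/-- `I_l = ∑_u W_lu`. -/
def Irow (T : Finset ι) (h : ι → Fin r → ℝ) (Z : ι → ℝ) (x : ι → ι → ℂ) (l : ι) : ℝ :=
  ∑ u ∈ T, W T h Z x l u

/-- The error of replacing a set by a ball of radius `R` at margin `g`. -/
def tailB (R : ℕ) (g : ℝ) : ℝ := 8 / g * Real.exp (-((R : ℝ) * Real.sqrt (g / 8)))

end Vale.Agent.P078.Local
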